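import Mathlib

/-!
P174: systems of equations over groups, exponent sums and solvability.
-/

namespace Vale.Agent.P174

open Monoid Monoid.Coprod

variable {G : Type*} [Group G] {α : Type*}

/-- The exponent sums of a word, as a homomorphism killing the coefficients. -/
noncomputable def expHom : G ∗ FreeGroup α →* Multiplicative (α →₀ ℤ) :=
  lift 1 (FreeGroup.lift fun a => Multiplicative.ofAdd (Finsupp.single a 1))

/-- The exponent sum of each unknown in a word. -/
noncomputable def expVec (w : G ∗ FreeGroup α) : α →₀ ℤ := Multiplicative.toAdd (expHom w)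

/-- The system `w i = 1` is solvable over `G`: `G` embeds in the quotient by its relators. -/
def Solvable {ι : Type*} (w : ι → G ∗ FreeGroup α) : Prop :=
  Function.Injective fun g : G =>
    (QuotientGroup.mk (inl g) : (G ∗ FreeGroup α) ⧸ Subgroup.normalClosure (Set.range w))

/-- Every system whose exponent sum matrix has independent rows modulo `p` is solvable. -/
def SolvesModP (p : ℕ) (G : Type*) [Group G] : Prop :=
  ∀ (m n : ℕ) (w : Fin m → G ∗ FreeGroup (Fin n)),
    LinearIndependent (ZMod p) (fun i j => ((expVec (w i) j : ℤ) : ZMod p)) → Solvable w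

/-- Every nonsingular system is solvable. -/
def Howie (G : Type*) [Group G] : Prop :=
  ∀ (m n : ℕ) (w : Fin m → G ∗ FreeGroup (Fin n)),
    LinearIndependent ℚ (fun i j => ((expVec (w i) j : ℤ) : ℚ)) → Solvable w

/-- Every nontrivial element survives in some finite `p`-quotient. -/
def ResiduallyP (p : ℕ) (Q : Type*) [Group Q] : Prop :=
  ∀ q : Q, q ≠ 1 → ∃ (P : Type) (_ : Group P) (_ : Finite P) (f : Q →* P),
    IsPGroup p P ∧ f q ≠ 1

end Vale.Agent.P174
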