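import Vale.Agent.P174.Defs

/-!
P174: exponent sums and systems with arbitrarily many equations and unknowns.
-/

namespace Vale.Agent.P174

open Monoid Monoid.Coprod

variable {G : Type*} [Group G] {α β : Type*} {p : ℕ}

@[simp] theorem expVec_one : expVec (1 : G ∗ FreeGroup α) = 0 := by simp [expVec]

@[simp] theorem expVec_mul (u v : G ∗ FreeGroup α) : expVec (u * v) = expVec u + expVec v := by
  simp [expVec]

@[simp] theorem expVec_inl (g : G) : expVec (inl g : G ∗ FreeGroup α) = 0 := by
  simp [expVec, expHom]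

@[simp] theorem expVec_of (a : α) :
    expVec (inr (FreeGroup.of a) : G ∗ FreeGroup α) = Finsupp.single a 1 := by
  simp [expVec, expHom]

@[simp] theorem expVec_inv (u : G ∗ FreeGroup α) : expVec u⁻¹ = -expVec u := by simp [expVec]

/-- Words in fewer unknowns. -/
def rename (f : β → α) : G ∗ FreeGroup β →* G ∗ FreeGroup α :=
  Coprod.map (MonoidHom.id G) (FreeGroup.map f)

theorem expVec_rename (f : β → α) (u : G ∗ FreeGroup β) :
    expVec (rename f u) = Finsupp.mapDomain f (expVec u) := by
  induction u using Coprod.induction_on with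
  | inl g => simp [rename]
  | inr v =>
    induction v using FreeGroup.induction_on with
    | C1 => simp
    | of a => simp [rename, Finsupp.mapDomain_single]
    | inv_of a ha => rw [map_inv, map_inv, expVec_inv, ha, expVec_inv, ← Finsupp.mapDomain.addMonoidHom_apply, ← Finsupp.mapDomain.addMonoidHom_apply, map_neg]
    | mul x y hx hy => simp [hx, hy, Finsupp.mapDomain_add]
  | mul x y hx hy => simp [hx, hy, Finsupp.mapDomain_add]

theorem exists_finset_normalClosure {H : Type*} [Group H] {ι : Type*} (w : ι → H) {x : H}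
    (hx : x ∈ Subgroup.normalClosure (Set.range w)) :
    ∃ s : Finset ι, x ∈ Subgroup.normalClosure (w '' ↑s) := by
  classical
  induction hx using Subgroup.closure_induction with
  | mem y hy =>
    obtain ⟨_, ⟨i, rfl⟩, hc⟩ := Group.mem_conjugatesOfSet_iff.1 hy
    obtain ⟨c, rfl⟩ := isConj_iff.1 hc
    refine ⟨{i}, Subgroup.normalClosure_normal.conj_mem _ ?_ c⟩
    exact Subgroup.subset_normalClosure ⟨i, by simp, rfl⟩
  | one => exact ⟨∅, one_mem _⟩
  | mul y z _ _ hy hz =>
    obtain ⟨s, hs⟩ := hy
    obtain ⟨t, ht⟩ := hz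
    exact ⟨s ∪ t, mul_mem (Subgroup.normalClosure_mono (Set.image_mono (by simp)) hs)
      (Subgroup.normalClosure_mono (Set.image_mono (by simp)) ht)⟩
  | inv y _ hy =>
    obtain ⟨s, hs⟩ := hy
    exact ⟨s, inv_mem hs⟩

theorem exists_finset_unknowns (u : G ∗ FreeGroup α) :
    ∃ T : Finset α, ∀ (β : Type) (f : β → α), ↑T ⊆ Set.range f → u ∈ (rename (G := G) f).range := by
  classical
  induction u using Coprod.induction_on with
  | inl g => exact ⟨∅, fun β f _ => ⟨inl g, by simp [rename]⟩⟩
  | inr v =>
    induction v using FreeGroup.induction_on with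
    | C1 => exact ⟨∅, fun β f _ => by simp⟩
    | of a =>
      refine ⟨{a}, fun β f hf => ?_⟩
      obtain ⟨b, rfl⟩ := hf (by simp : a ∈ (↑({a} : Finset α) : Set α))
      exact ⟨inr (FreeGroup.of b), by simp [rename]⟩
    | inv_of a ha =>
      obtain ⟨T, hT⟩ := ha
      exact ⟨T, fun β f hf => by rw [map_inv]; exact inv_mem (hT β f hf)⟩
    | mul x y hx hy =>
      obtain ⟨S, hS⟩ := hx
      obtain ⟨T, hT⟩ := hy
      exact ⟨S ∪ T, fun β f hf => by
        rw [map_mul]
        exact mul_mem (hS β f fun a ha => hf (by simp [Finset.mem_coe.1 ha]))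
          (hT β f fun a ha => hf (by simp [Finset.mem_coe.1 ha]))⟩
  | mul x y hx hy =>
    obtain ⟨S, hS⟩ := hx
    obtain ⟨T, hT⟩ := hy
    exact ⟨S ∪ T, fun β f hf => mul_mem (hS β f fun a ha => hf (by simp [Finset.mem_coe.1 ha]))
      (hT β f fun a ha => hf (by simp [Finset.mem_coe.1 ha]))⟩

/-- Systems of any size follow from finite ones. -/
theorem SolvesModP.solvable_family (h : SolvesModP p G) {ι : Type*} (w : ι → G ∗ FreeGroup α)
    (hw : LinearIndependent (ZMod p) fun i =>
      Finsupp.mapRange.addMonoidHom (Int.castAddHom (ZMod p)) (expVec (w i))) :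
    Solvable w := by
  classical
  intro g g' hg
  have hmem : (inl (g⁻¹ * g') : G ∗ FreeGroup α) ∈ Subgroup.normalClosure (Set.range w) := by
    rw [map_mul, map_inv]
    exact QuotientGroup.eq.1 hg
  obtain ⟨s, hs⟩ := exists_finset_normalClosure w hmem
  choose T hT using fun i => exists_finset_unknowns (w i)
  set U : Finset α := s.biUnion T
  let f : Fin U.card → α := fun k => (U.equivFin.symm k : α)
  have hf : Function.Injective f := fun a b e => U.equivFin.symm.injective (Subtype.ext e)
  have hrange : ∀ i ∈ s, w i ∈ (rename (G := G) f).range := fun i hi =>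
    hT i _ f fun a ha => ⟨U.equivFin ⟨a, Finset.mem_biUnion.2 ⟨i, hi, ha⟩⟩, by simp [f]⟩
  let e : Fin s.card ≃ s := s.equivFin.symm
  choose v hv using fun k : Fin s.card => hrange _ (e k).2
  have hsolv : Solvable v := h _ _ v (by
    rw [Fintype.linearIndependent_iff]
    intro c hc k
    refine Fintype.linearIndependent_iff.1 (hw.comp (fun k => ((e k : s) : ι))
      (Subtype.val_injective.comp e.injective)) c (Finsupp.ext fun a => ?_) k
    simp only [Function.comp_apply, ← hv, expVec_rename]
    by_cases ha : a ∈ Set.range f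
    · obtain ⟨b, rfl⟩ := ha
      have := congrFun hc b
      simpa [Finset.sum_apply, Finsupp.finsetSum_apply, Finsupp.mapDomain_apply hf] using this
    · simp [Finsupp.finsetSum_apply, Finsupp.mapDomain_of_notMem_range _ _ ha])
  let r : G ∗ FreeGroup α →* G ∗ FreeGroup (Fin U.card) :=
    Coprod.lift inl (FreeGroup.lift fun a => if h : a ∈ Set.range f
      then inr (FreeGroup.of h.choose) else 1)
  have hr : ∀ u, r (rename f u) = u := by
    refine DFunLike.congr_fun (Coprod.hom_ext (f := r.comp (rename f)) (g := MonoidHom.id _)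
      (MonoidHom.ext fun x => by simp [r, rename]) (FreeGroup.ext_hom _ _ fun b => ?_))
    have hb : f b ∈ Set.range f := ⟨b, rfl⟩
    simp [r, rename, hf hb.choose_spec]
  have h2 : r (inl (g⁻¹ * g')) ∈ Subgroup.normalClosure (Set.range v) := by
    refine (Subgroup.normalClosure_le_normal (N := (Subgroup.normalClosure (Set.range v)).comap r)
      ?_) hs
    rintro _ ⟨i, hi, rfl⟩
    refine Subgroup.subset_normalClosure ⟨e.symm ⟨i, hi⟩, ?_⟩
    rw [← hr (v _), hv]
    simp
  refine hsolv (QuotientGroup.eq.2 ?_)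
  simpa [r, map_mul, map_inv] using h2

end Vale.Agent.P174
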