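import Vale.Agent.P174.Twist

/-!
P174: abelian kernels, and nonsingular systems from infinitely many primes.
-/

namespace Vale.Agent.P174

open Finset Monoid Monoid.Coprod

variable {p m n : ℕ}

/-- Rows independent modulo a prime are independent over the integers. -/
theorem intIndep (hp : p.Prime) {a : Fin m → Fin n → ℤ}
    (ha : LinearIndependent (ZMod p) fun i j => (a i j : ZMod p))
    (c : Fin m → ℤ) (hc : ∀ j, ∑ i, c i * a i j = 0) : c = 0 := by
  have : Fact p.Prime := ⟨hp⟩
  have key : ∀ (k : ℕ) (c : Fin m → ℤ), (∀ j, ∑ i, c i * a i j = 0) →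
      ∀ i, ((p : ℤ) ^ k) ∣ c i := by
    intro k
    induction k with
    | zero => exact fun c _ i => by simp
    | succ k ih =>
      intro c hc i
      choose d hd using ih c hc
      have hd0 : ∀ j, ∑ i, d i * a i j = 0 := fun j => by
        have h := hc j
        simp only [hd, mul_assoc, ← mul_sum] at h
        exact (mul_eq_zero.1 h).resolve_left (pow_ne_zero _ (by exact_mod_cast hp.ne_zero))
      have hz : (d i : ZMod p) = 0 := by
        refine Fintype.linearIndependent_iff.1 ha (fun i => (d i : ZMod p)) (funext fun j => ?_) i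
        have h := congrArg (Int.cast : ℤ → ZMod p) (hd0 j)
        simpa [Finset.sum_apply] using h
      obtain ⟨e, he⟩ := (ZMod.intCast_zmod_eq_zero_iff_dvd _ _).1 hz
      exact ⟨e, by rw [hd i, he, pow_succ, mul_assoc]⟩
  funext i
  by_contra h
  have hd := Int.natAbs_dvd_natAbs.2 (key (c i).natAbs c hc i)
  rw [Int.natAbs_pow, Int.natAbs_natCast] at hd
  have := Nat.le_of_dvd (Int.natAbs_pos.2 h) hd
  exact absurd this (not_le.2 (Nat.lt_pow_self hp.one_lt))

/-- Abelian groups solve every system with independent exponent sums. -/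
theorem solvesModP_of_comm (hp : p.Prime) {G : Type*} [Group G] (hG : ∀ a b : G, a * b = b * a) :
    SolvesModP p G := by
  classical
  let _ : CommGroup G := { ‹Group G› with mul_comm := hG }
  intro m n w hw
  let φ : G ∗ FreeGroup (Fin n) →* G × (Fin n → Multiplicative ℤ) :=
    Coprod.lift (MonoidHom.inl _ _)
      (FreeGroup.lift fun j => (1, Pi.mulSingle j (Multiplicative.ofAdd 1)))
  have hφ : ∀ u j, Multiplicative.toAdd ((φ u).2 j) = expVec u j := by
    intro u
    induction u using Coprod.induction_on with
    | inl g => intro j; simp [φ]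
    | inr v =>
      induction v using FreeGroup.induction_on with
      | C1 => intro j; simp [φ]
      | of k =>
        intro j
        by_cases h : j = k <;> simp [φ, h]
      | inv_of k hk => intro j; simp [hk j]
      | mul x y hx hy => intro j; simp [hx j, hy j]
    | mul x y hx hy => intro j; simp [hx j, hy j]
  let R : Subgroup (G × (Fin n → Multiplicative ℤ)) := Subgroup.closure (Set.range fun i => φ (w i))
  have hle : Subgroup.normalClosure (Set.range w) ≤ R.comap φ :=
    Subgroup.normalClosure_le_normal (by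
      rintro _ ⟨i, rfl⟩
      exact Subgroup.subset_closure ⟨i, rfl⟩)
  intro g g' hg
  have hmem : φ (inl (g⁻¹ * g')) ∈ R := by
    rw [map_mul, map_inv]
    exact hle (QuotientGroup.eq.1 hg)
  obtain ⟨c, hc⟩ := Subgroup.mem_closure_range_iff_of_fintype.1 hmem
  have hc0 : c = 0 := intIndep hp hw c fun j => by
    have h := congrArg (fun z : G × (Fin n → Multiplicative ℤ) => Multiplicative.toAdd (z.2 j)) hc
    simp only [Prod.snd_prod, Finset.prod_apply, Prod.pow_snd, Pi.pow_apply, toAdd_prod,
      toAdd_zpow, hφ, smul_eq_mul] at h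
    rw [← h]
    simp
  subst hc0
  exact inv_mul_eq_one.1 (by simpa [φ] using congrArg Prod.fst hc)

/-- Solvability modulo infinitely many primes gives every nonsingular system. -/
theorem howie_of_infinite {G : Type*} [Group G] (h : {p | p.Prime ∧ SolvesModP p G}.Infinite) :
    Howie G := by
  classical
  intro m n w hw
  obtain ⟨B, hB⟩ := exists_right_inverse hw
  let d : ℕ := ∏ j, ∏ k, (B j k).den
  obtain ⟨p, ⟨hp, hsolve⟩, hgt⟩ := h.exists_gt d
  have : Fact p.Prime := ⟨hp⟩
  have hd0 : d ≠ 0 := by simp [d, Finset.prod_eq_zero_iff]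
  have hdp : (d : ZMod p) ≠ 0 := by
    rw [Ne, ZMod.natCast_eq_zero_iff]
    exact fun hdvd => absurd (Nat.le_of_dvd (Nat.pos_of_ne_zero hd0) hdvd) (not_le.2 hgt)
  have hint : ∀ j k, ∃ b : ℤ, (b : ℚ) = d * B j k := fun j k => by
    obtain ⟨e, he⟩ : (B j k).den ∣ d :=
      (Finset.dvd_prod_of_mem (fun k => (B j k).den) (mem_univ k)).trans
        (Finset.dvd_prod_of_mem (fun j => ∏ k, (B j k).den) (mem_univ j))
    exact ⟨e * (B j k).num, by rw [he]; push_cast; rw [← Rat.mul_den_eq_num]; ring⟩
  choose b hb using hint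
  refine hsolve m n w (Fintype.linearIndependent_iff.2 fun c hc k => ?_)
  have hab : ∀ i, ∑ j, expVec (w i) j * b j k = if i = k then (d : ℤ) else 0 := fun i => by
    have : ((∑ j, expVec (w i) j * b j k : ℤ) : ℚ) = (d : ℚ) * if i = k then 1 else 0 := by
      rw [← hB i k, mul_sum]
      push_cast
      exact sum_congr rfl fun j _ => by rw [hb]; ring
    by_cases hik : i = k <;> simp [hik] at this ⊢ <;> exact_mod_cast this
  have hz : ∑ i, c i * ((∑ j, expVec (w i) j * b j k : ℤ) : ZMod p) = 0 := by
    push_cast
    simp only [mul_sum, ← mul_assoc]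
    rw [sum_comm]
    refine sum_eq_zero fun j _ => ?_
    rw [← sum_mul]
    have h := congrFun hc j
    simp only [Finset.sum_apply, Pi.smul_apply, smul_eq_mul, Pi.zero_apply] at h
    rw [h, zero_mul]
  simp only [hab] at hz
  simpa [apply_ite, hdp] using hz

end Vale.Agent.P174
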