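import Vale.Agent.P174.Defs

/-!
P174: a matrix over the group algebra of a finite `p`-group with independent augmented rows.
-/

namespace Vale.Agent.P174

open Finset

variable {p : ℕ} [Fact p.Prime] {P : Type*} [Group P] {m n : ℕ}

local instance : Fact (1 < p) := ⟨(Fact.out : p.Prime).one_lt⟩

variable (p P) in
/-- The augmentation. -/
noncomputable def aug : MonoidAlgebra (ZMod p) P →ₐ[ZMod p] ZMod p :=
  MonoidAlgebra.lift (ZMod p) (ZMod p) P 1

theorem aug_of (x : P) : aug p P (MonoidAlgebra.of (ZMod p) P x) = 1 := by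
  simp [aug]

theorem mul_sum_of [Fintype P] (D : MonoidAlgebra (ZMod p) P) :
    D * (∑ t : P, MonoidAlgebra.of (ZMod p) P t) =
      aug p P D • ∑ t : P, MonoidAlgebra.of (ZMod p) P t := by
  induction D using MonoidAlgebra.induction_on with
  | of x =>
    rw [aug_of, one_smul, mul_sum]
    simp only [← map_mul]
    exact Fintype.sum_equiv (Equiv.mulLeft x) _ _ fun t => rfl
  | add x y hx hy => rw [add_mul, hx, hy, map_add, add_smul]
  | smul r x hx => rw [smul_mul_assoc, hx, map_smul, smul_assoc]

/-- Injectivity of a matrix over `F_p[P]` with independent augmented rows. -/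
theorem eq_zero_of_jac [Finite P] (hP : IsPGroup p P)
    (D : Fin m → Fin n → MonoidAlgebra (ZMod p) P)
    (hD : LinearIndependent (ZMod p) fun i j => aug p P (D i j))
    {γ : Fin m → MonoidAlgebra (ZMod p) P} (hγ : ∀ j, ∑ i, D i j * γ i = 0) : γ = 0 := by
  classical
  have : Fintype P := Fintype.ofFinite P
  let K : Submodule (ZMod p) (Fin m → MonoidAlgebra (ZMod p) P) :=
    { carrier := {γ | ∀ j, ∑ i, D i j * γ i = 0}
      add_mem' := fun {x y} hx hy j => by simp [mul_add, sum_add_distrib, hx j, hy j]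
      zero_mem' := fun j => by simp
      smul_mem' := fun r x hx j => by simp [← smul_sum, hx j] }
  by_contra hne
  have hmem : ∀ (t : P) (x : K),
      (fun i => x.1 i * MonoidAlgebra.of (ZMod p) P t) ∈ K := fun t x j => by
    simp only [← mul_assoc, ← sum_mul, x.2 j, zero_mul]
  let act : MulAction P K :=
    { smul := fun t x => ⟨_, hmem t⁻¹ x⟩
      one_smul := fun x => Subtype.ext (funext fun i => by
        show x.1 i * MonoidAlgebra.of (ZMod p) P (1 : P)⁻¹ = x.1 i
        rw [inv_one, map_one, mul_one])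
      mul_smul := fun s t x => Subtype.ext (funext fun i => by
        show x.1 i * MonoidAlgebra.of (ZMod p) P (s * t)⁻¹ =
          x.1 i * MonoidAlgebra.of (ZMod p) P t⁻¹ * MonoidAlgebra.of (ZMod p) P s⁻¹
        rw [mul_inv_rev, map_mul, mul_assoc]) }
  have : Finite (MonoidAlgebra (ZMod p) P) := Finite.of_equiv _ MonoidAlgebra.coeffEquiv.symm
  have : Nontrivial K := ⟨⟨⟨γ, hγ⟩, 0, fun e => hne (congrArg Subtype.val e)⟩⟩
  have hdvd : p ∣ Nat.card K := by
    rw [Module.natCard_eq_pow_finrank (K := ZMod p), Nat.card_zmod]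
    exact dvd_pow_self p (Module.finrank_pos (R := ZMod p) (M := K)).ne'
  obtain ⟨b, hb, hb0⟩ := hP.exists_fixed_point_of_prime_dvd_card_of_fixed_point K hdvd
    (a := (0 : K)) (fun t => Subtype.ext (funext fun i => by
      show (0 : MonoidAlgebra (ZMod p) P) * _ = 0
      rw [zero_mul]))
  have hfix : ∀ i t, b.1 i * MonoidAlgebra.of (ZMod p) P t = b.1 i := fun i t => by
    have h : b.1 i * MonoidAlgebra.of (ZMod p) P (t⁻¹)⁻¹ = b.1 i :=
      congrFun (congrArg Subtype.val (hb t⁻¹)) i
    rwa [inv_inv] at h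
  set c : Fin m → ZMod p := fun i => (b.1 i).coeff 1
  have hc : ∀ i, b.1 i = c i • ∑ t : P, MonoidAlgebra.of (ZMod p) P t := fun i => by
    apply MonoidAlgebra.coeff_injective
    ext x
    have h := congrArg (fun z : MonoidAlgebra (ZMod p) P => z.coeff x) (hfix i x)
    simp only [MonoidAlgebra.of_apply] at h
    simp [c, MonoidAlgebra.of_apply, Finsupp.single_apply] at h ⊢
    exact h.symm
  refine hb0 (Subtype.ext ((funext fun i => ?_).symm))
  have hzero : ∑ i, c i • (fun j => aug p P (D i j)) = 0 := by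
    funext j
    have h := b.2 j
    simp only [hc, mul_smul_comm, mul_sum_of, ← mul_smul, ← sum_smul] at h
    have h1 := congrArg (fun z : MonoidAlgebra (ZMod p) P => z.coeff 1) h
    simp [MonoidAlgebra.of_apply, Finsupp.single_apply] at h1
    simpa [Finset.sum_apply] using h1
  rw [hc i, Fintype.linearIndependent_iff.1 hD c hzero i, zero_smul]
  rfl

end Vale.Agent.P174
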