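import Vale.Agent.P174.Family

/-!
P174: systems nonsingular modulo `p` have solutions in finite `p`-groups.
-/

namespace Vale.Agent.P174

open Finset Monoid Monoid.Coprod
open scoped IsMulCommutative

variable {p : ℕ} [Fact p.Prime] {m n : ℕ}

theorem exists_right_inverse {K : Type*} [Field K] {A : Fin m → Fin n → K}
    (hA : LinearIndependent K A) :
    ∃ B : Fin n → Fin m → K, ∀ i k, ∑ j, A i j * B j k = if i = k then 1 else 0 := by
  classical
  have hinj : Function.Injective (Fintype.linearCombination K A) :=
    LinearIndependent.fintypeLinearCombination_injective hA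
  obtain ⟨g, hg⟩ := LinearMap.exists_leftInverse_of_injective (Fintype.linearCombination K A)
    (LinearMap.ker_eq_bot.2 hinj)
  refine ⟨fun j k => g (Pi.single j 1) k, fun i k => ?_⟩
  have e : g (A i) = Pi.single i 1 := by
    simpa using LinearMap.congr_fun hg (Pi.single i (1 : K))
  conv at e => lhs; rw [pi_eq_sum_univ' (A i), map_sum]
  have h := congrFun e k
  simp only [map_smul, Finset.sum_apply, Pi.smul_apply, smul_eq_mul] at h
  rw [h, Pi.single_apply]
  simp [eq_comm]

/-- The map of `Z^n` to `Z^m` given by an integer matrix. -/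
def powMap {Z : Type*} [CommGroup Z] (a : Fin m → Fin n → ℤ) : (Fin n → Z) →* (Fin m → Z) where
  toFun t i := ∏ j, t j ^ a i j
  map_one' := by funext i; simp
  map_mul' s t := by funext i; simp [mul_zpow, prod_mul_distrib]

theorem powMap_surjective {Z : Type*} [CommGroup Z] [Finite Z] (hZ : IsPGroup p Z)
    {a : Fin m → Fin n → ℤ} (ha : LinearIndependent (ZMod p) fun i j => (a i j : ZMod p)) :
    Function.Surjective (powMap (Z := Z) a) := by
  classical
  obtain ⟨B, hB⟩ := exists_right_inverse ha
  set b : Fin n → Fin m → ℤ := fun j k => ((B j k).val : ℤ)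
  have hdiv : ∀ i k, (p : ℤ) ∣ (if i = k then 1 else 0) - ∑ j, a i j * b j k := fun i k => by
    rw [← ZMod.intCast_zmod_eq_zero_iff_dvd]
    push_cast
    simp [b, hB i k]
  choose e he using hdiv
  have step : ∀ y : Fin m → Z, ∃ u w, y = powMap a u * w ^ p := fun y => by
    refine ⟨powMap b y, powMap e y, funext fun i => ?_⟩
    let φ : Z → Additive Z := Additive.ofMul
    apply Additive.ofMul.injective
    simp only [powMap, MonoidHom.coe_mk, OneHom.coe_mk, Pi.mul_apply, Pi.pow_apply, ofMul_mul,
      ofMul_pow, ofMul_prod, ofMul_zpow, smul_sum, smul_smul, ← Nat.cast_smul_eq_nsmul ℤ]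
    rw [sum_comm, ← sum_add_distrib]
    simp only [← sum_smul, ← add_smul]
    have : ∀ k, (∑ j, a i j * b j k) + (p : ℤ) * e i k = if i = k then 1 else 0 := fun k => by
      rw [← he i k]; ring
    simp [this, ite_smul]
  have iter : ∀ (k : ℕ) (y : Fin m → Z), ∃ u w, y = powMap a u * w ^ (p ^ k) := by
    intro k
    induction k with
    | zero => exact fun y => ⟨1, y, by simp⟩
    | succ k ih =>
      intro y
      obtain ⟨u, w, rfl⟩ := ih y
      obtain ⟨u', w', rfl⟩ := step w
      refine ⟨u * u' ^ (p ^ k), w', ?_⟩
      rw [mul_pow, map_mul, map_pow, ← pow_mul, ← pow_succ', mul_assoc]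
  obtain ⟨k, hk⟩ := IsPGroup.iff_card.1 hZ
  intro y
  obtain ⟨u, w, rfl⟩ := iter k y
  exact ⟨u, by rw [show w ^ (p ^ k) = 1 from funext fun i => by
    rw [Pi.pow_apply, ← hk, pow_card_eq_one', Pi.one_apply], mul_one]⟩

variable {Q : Type*} [Group Q]

/-- Words nonsingular modulo `p` have a common zero in every finite `p`-group. -/
theorem exists_solution {G : Type*} [Group G] (w : Fin m → G ∗ FreeGroup (Fin n))
    (hw : LinearIndependent (ZMod p) fun i j => ((expVec (w i) j : ℤ) : ZMod p))
    (P : Type) [Group P] [Finite P] (hP : IsPGroup p P) (f : G →* P) :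
    ∃ x : Fin n → P, ∀ i, Coprod.lift f (FreeGroup.lift x) (w i) = 1 := by
  induction hN : Nat.card P using Nat.strong_induction_on generalizing P with
  | _ N ih =>
    rcases subsingleton_or_nontrivial P with h | h
    · exact ⟨1, fun i => Subsingleton.elim _ _⟩
    have hlt : Nat.card (P ⧸ (Subgroup.center P)) < N := by
      have h1 : 1 < Nat.card (Subgroup.center P) := by
        have := hP.center_nontrivial
        exact Finite.one_lt_card
      have h2 := Subgroup.card_eq_card_quotient_mul_card_subgroup (Subgroup.center P)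
      have h3 : 0 < Nat.card (P ⧸ (Subgroup.center P)) := Nat.card_pos
      subst hN
      nlinarith
    obtain ⟨y, hy⟩ := ih _ hlt (P ⧸ (Subgroup.center P)) (hP.to_quotient (Subgroup.center P)) ((QuotientGroup.mk' (Subgroup.center P)).comp f) rfl
    choose x0 hx0 using fun j => QuotientGroup.mk'_surjective (Subgroup.center P) (y j)
    have hcomp : (QuotientGroup.mk' (Subgroup.center P)).comp (Coprod.lift f (FreeGroup.lift x0)) =
        Coprod.lift ((QuotientGroup.mk' (Subgroup.center P)).comp f) (FreeGroup.lift y) := by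
      refine Coprod.hom_ext (MonoidHom.ext fun g => by simp) (FreeGroup.ext_hom _ _ fun j => ?_)
      simpa using hx0 j
    have hzi : ∀ i, (Coprod.lift f (FreeGroup.lift x0) (w i))⁻¹ ∈ (Subgroup.center P) := fun i => by
      refine inv_mem ((QuotientGroup.eq_one_iff _).1 ?_)
      rw [← hy i, ← hcomp]
      rfl
    obtain ⟨t, ht⟩ := powMap_surjective (hP.to_subgroup (Subgroup.center P)) hw fun i => (⟨_, hzi i⟩ : (Subgroup.center P))
    refine ⟨fun j => x0 j * (t j : P), fun i => ?_⟩
    let E : G ∗ FreeGroup (Fin n) →* (Subgroup.center P) := Coprod.lift 1 (FreeGroup.lift t)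
    let L : G ∗ FreeGroup (Fin n) →* P :=
      { toFun := fun u => Coprod.lift f (FreeGroup.lift x0) u * (E u : P)
        map_one' := by simp
        map_mul' := fun u v => by
          have hc := Subgroup.mem_center_iff.1 (E u).2 (Coprod.lift f (FreeGroup.lift x0) v)
          simp only [map_mul, Subgroup.coe_mul]
          simp only [mul_assoc]
          rw [← mul_assoc _ (E u : P), hc, mul_assoc] }
    have hL : Coprod.lift f (FreeGroup.lift fun j => x0 j * (t j : P)) = L := by
      refine Coprod.hom_ext (MonoidHom.ext fun g => by simp [L, E])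
        (FreeGroup.ext_hom _ _ fun j => ?_)
      simp [L, E]
    have hE : ∀ u, E u = ∏ j, t j ^ expVec u j := fun u => by
      let E' : G ∗ FreeGroup (Fin n) →* (Subgroup.center P) :=
        { toFun := fun u => ∏ j, t j ^ expVec u j
          map_one' := by simp
          map_mul' := fun u v => by simp [zpow_add, prod_mul_distrib] }
      refine DFunLike.congr_fun (Coprod.hom_ext (g := E') (MonoidHom.ext fun g => by simp [E, E'])
        (FreeGroup.ext_hom _ _ fun j => ?_)) u
      simp [E, E', Finsupp.single_apply, pow_ite]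
    have hi : E (w i) = ⟨_, hzi i⟩ := (hE _).trans (congrFun ht i)
    rw [hL]
    show Coprod.lift f (FreeGroup.lift x0) (w i) * (E (w i) : P) = 1
    rw [hi]
    exact mul_inv_cancel _

end Vale.Agent.P174
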