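import Vale.Agent.P174.PGroup
import Vale.Agent.P174.Solve

/-!
P174: solvability modulo `p` passes to extensions with residually finite `p` quotient.
-/

namespace Vale.Agent.P174

open Finset Monoid Monoid.Coprod

/-- Functoriality of the wreath product in the base. -/
def mapLeft {D D' H : Type*} [Group D] [Group D'] [Group H] (φ : D →* D') : D ≀ᵣ H →* D' ≀ᵣ H where
  toFun a := ⟨fun s => φ (a.left s), a.right⟩
  map_one' := by ext <;> simp
  map_mul' a b := by ext <;> simp

theorem exists_wreath_embedding {G Q H : Type*} [Group G] [Group Q] [Group H] (π : G →* Q)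
    (hπ : Function.Surjective π) (ι : Q →* H) (hι : Function.Injective ι) :
    ∃ ψ : G →* π.ker ≀ᵣ H, Function.Injective ψ ∧ ∀ g, (ψ g).right = ι (π g) := by
  classical
  let r : H → H := fun h => (Quotient.mk (QuotientGroup.rightRel ι.range) h).out
  have hq : ∀ h, ∃ q, ι q * r h = h := fun h => by
    have e := Quotient.mk_out (s := QuotientGroup.rightRel ι.range) h
    rw [← Quotient.eq (r := QuotientGroup.rightRel ι.range)] at e
    have := QuotientGroup.rightRel_apply.1 (Quotient.exact e)
    obtain ⟨q, hq⟩ := this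
    exact ⟨q, by rw [hq]; simp [r]⟩
  choose q hq using hq
  choose sec hsec using hπ
  let σ : H → G := fun h => sec (q h)
  have hrinv : ∀ a h, r (ι a * h) = r h := fun a h => by
    simp only [r]
    rw [Quotient.sound (s := QuotientGroup.rightRel ι.range) (a := ι a * h) (b := h)
      (QuotientGroup.rightRel_apply.2 ⟨a⁻¹, by simp⟩)]
  have hσ : ∀ a h, π (σ (ι a * h)) = a * π (σ h) := fun a h => by
    simp only [σ, hsec]
    apply hι
    have h1 := hq (ι a * h)
    rw [hrinv] at h1
    rw [map_mul, ← mul_right_cancel_iff (a := r h), h1, mul_assoc, hq]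
  let c : G → H → π.ker := fun g s => ⟨(σ s)⁻¹ * g * σ (ι (π g)⁻¹ * s), by
    rw [MonoidHom.mem_ker, map_mul, map_mul, hσ, map_inv, mul_assoc, mul_inv_cancel_left,
      inv_mul_cancel]⟩
  refine ⟨{ toFun := fun g => ⟨c g, ι (π g)⟩, map_one' := ?_, map_mul' := ?_ }, ?_, fun g => rfl⟩
  · refine RegularWreathProduct.ext (funext fun s => Subtype.ext ?_) (by simp)
    simp [c]
  · intro a b
    refine RegularWreathProduct.ext (funext fun s => Subtype.ext ?_) (by simp)
    simp [c, mul_assoc]
  · refine (injective_iff_map_eq_one _).2 fun g hg => ?_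
    have h1 : π g = 1 := hι (by rw [map_one]; exact congrArg RegularWreathProduct.right hg)
    have h2 : (c g 1 : G) = 1 := congrArg Subtype.val
      (congrFun (congrArg RegularWreathProduct.left hg) 1)
    simp only [c, h1, inv_one, map_one, one_mul] at h2
    calc g = σ 1 * ((σ 1)⁻¹ * g * σ 1) * (σ 1)⁻¹ := by group
      _ = 1 := by rw [h2]; group

variable {p : ℕ} [Fact p.Prime]

theorem IsPGroup.pi' {ι : Type*} [Finite ι] {P : ι → Type*} [∀ i, Group (P i)] [∀ i, Finite (P i)]
    (h : ∀ i, IsPGroup p (P i)) : IsPGroup p (∀ i, P i) := by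
  have := Fintype.ofFinite ι
  choose k hk using fun i => IsPGroup.iff_card.1 (h i)
  exact IsPGroup.of_card (n := ∑ i, k i) (by simp [Nat.card_pi, hk, Finset.prod_pow_eq_pow_sum])

theorem exists_finite_separation {ι : Type} {P : ι → Type} [∀ i, Group (P i)] [∀ i, Finite (P i)]
    (h : ∀ i, IsPGroup p (P i)) (S : Finset (∀ i, P i)) :
    ∃ (R : Type) (_ : Group R) (_ : Finite R) (f : (∀ i, P i) →* R),
      IsPGroup p R ∧ Set.InjOn f S := by
  classical
  have hsep : ∀ a b : ∀ i, P i, ∃ F : Finset ι, a ≠ b → ∃ i ∈ F, a i ≠ b i := fun a b => by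
    by_cases hab : a = b
    · exact ⟨∅, fun h => absurd hab h⟩
    · obtain ⟨i, hi⟩ := Function.ne_iff.1 hab
      exact ⟨{i}, fun _ => ⟨i, mem_singleton_self i, hi⟩⟩
  choose F hF using hsep
  let T : Finset ι := (S ×ˢ S).biUnion fun ab => F ab.1 ab.2
  refine ⟨∀ i : T, P i, inferInstance, inferInstance,
    MonoidHom.pi fun i : T => Pi.evalMonoidHom P i, IsPGroup.pi' fun i => h i, ?_⟩
  intro a ha b hb e
  by_contra hab
  obtain ⟨i, hi, hne⟩ := hF a b hab
  exact hne (congrFun e ⟨i, mem_biUnion.2 ⟨(a, b), mem_product.2 ⟨ha, hb⟩, hi⟩⟩)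

/-- The twisted exponent sums. -/
noncomputable def lamMap {H R : Type*} [Monoid R] (f : H → R) (p n : ℕ) :
    (H × Fin n →₀ ZMod p) →ₗ[ZMod p] (Fin n → MonoidAlgebra (ZMod p) R) :=
  Finsupp.linearCombination (ZMod p) fun sj => Pi.single sj.2 (MonoidAlgebra.of (ZMod p) R (f sj.1))

/-- Reduction of exponent sums modulo `p`. -/
noncomputable def rowP (p : ℕ) {G : Type*} [Group G] {α : Type*} (u : G ∗ FreeGroup α) :
    α →₀ ZMod p :=
  Finsupp.mapRange.addMonoidHom (Int.castAddHom (ZMod p)) (expVec u)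

@[simp] theorem rowP_mul {G : Type*} [Group G] {α : Type*} (u v : G ∗ FreeGroup α) :
    rowP p (u * v) = rowP p u + rowP p v := by rw [rowP, expVec_mul, map_add]; rfl

omit [Fact p.Prime] in
@[simp] theorem rowP_one {G : Type*} [Group G] {α : Type*} :
    rowP p (1 : G ∗ FreeGroup α) = 0 := by simp [rowP]

@[simp] theorem rowP_inv {G : Type*} [Group G] {α : Type*} (u : G ∗ FreeGroup α) :
    rowP p u⁻¹ = -rowP p u := by rw [rowP, expVec_inv, map_neg]; rfl

variable {G N H R : Type*} [Group G] [Group N] [Group H] [Group R] {m n : ℕ}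

/-- The Fox derivative of a lift is linearly independent over the translates. -/
theorem linearIndependent_lift (hR : IsPGroup p R) [Finite R] (f : H →* R)
    (Ψ : G ∗ FreeGroup (Fin n) →* (N ∗ FreeGroup (H × Fin n)) ≀ᵣ H)
    (hG : ∀ g s, ∃ y : N, (Ψ (inl g)).left s = inl y)
    (hX : ∀ j, (Ψ (inr (FreeGroup.of j))).left = fun s => inr (FreeGroup.of (s, j)))
    (w : Fin m → G ∗ FreeGroup (Fin n))
    (hw : LinearIndependent (ZMod p) fun i j => ((expVec (w i) j : ℤ) : ZMod p))
    (c : Fin m × H →₀ ZMod p) (hf : Set.InjOn f (Prod.snd '' (↑c.support : Set (Fin m × H))))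
    (hc : Finsupp.linearCombination (ZMod p) (fun e => rowP p ((Ψ (w e.1)).left e.2)) c = 0) :
    c = 0 := by
  classical
  set D : G ∗ FreeGroup (Fin n) → H → Fin n → MonoidAlgebra (ZMod p) R :=
    fun u s => lamMap f p n (rowP p ((Ψ u).left s)) with hD
  have hmul : ∀ u v s, D (u * v) s = D u s + D v ((Ψ u).right⁻¹ * s) := fun u v s => by
    simp [hD]
  have htw : ∀ u s j, D u s j = D u 1 j * MonoidAlgebra.of (ZMod p) R (f s) := by
    have hprod : ∀ u v, (∀ s j, D u s j = D u 1 j * MonoidAlgebra.of (ZMod p) R (f s)) →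
        (∀ s j, D v s j = D v 1 j * MonoidAlgebra.of (ZMod p) R (f s)) →
        ∀ s j, D (u * v) s j = D (u * v) 1 j * MonoidAlgebra.of (ZMod p) R (f s) := by
      intro u v hu hv s j
      simp only [hmul, Pi.add_apply, mul_one]
      rw [hu s j, hv _ j, hv (Ψ u).right⁻¹ j, add_mul, map_mul, map_mul, mul_assoc]
    intro u
    induction u using Coprod.induction_on with
    | inl g =>
      intro s j
      obtain ⟨y, hy⟩ := hG g s
      obtain ⟨y', hy'⟩ := hG g 1
      simp [hD, hy, hy', rowP]
    | inr v =>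
      induction v using FreeGroup.induction_on with
      | C1 => intro s j; simp [hD]
      | of k =>
        intro s j
        by_cases hjk : j = k <;>
          simp [hD, hX, rowP, lamMap, hjk]
      | inv_of k hk =>
        intro s j
        have h1 : ∀ s, D (inr (FreeGroup.of k))⁻¹ s j =
            -D (inr (FreeGroup.of k)) ((Ψ (inr (FreeGroup.of k))).right * s) j := fun s => by
          simp [hD]
        rw [map_inv, h1, h1, hk _ j, hk (_ * 1) j, mul_one, map_mul, map_mul, neg_mul, mul_assoc]
      | mul x y hx hy => rw [map_mul]; exact hprod _ _ hx hy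
    | mul x y hx hy => exact hprod _ _ hx hy
  have haug : ∀ u j, aug p R (D u 1 j) = ((expVec u j : ℤ) : ZMod p) := by
    have hadd : ∀ u v j, aug p R (D (u * v) 1 j) = aug p R (D u 1 j) + aug p R (D v 1 j) :=
      fun u v j => by rw [hmul, Pi.add_apply, map_add, htw v _ j, map_mul, aug_of, mul_one]
    intro u
    induction u using Coprod.induction_on with
    | inl g =>
      intro j
      obtain ⟨y, hy⟩ := hG g 1
      simp [hD, hy, rowP]
    | inr v =>
      induction v using FreeGroup.induction_on with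
      | C1 => intro j; simp [hD]
      | of k =>
        intro j
        by_cases hjk : j = k <;>
          simp [hD, hX, rowP, lamMap, hjk, ← MonoidAlgebra.one_def]
      | inv_of k hk =>
        intro j
        have h := hadd (inr (FreeGroup.of k)) (inr (FreeGroup.of k))⁻¹ j
        rw [mul_inv_cancel, hk j, show aug p R (D 1 1 j) = 0 by simp [hD]] at h
        rw [map_inv, expVec_inv, Finsupp.neg_apply, Int.cast_neg]
        exact eq_neg_of_add_eq_zero_right h.symm
      | mul x y hx hy => intro j; rw [map_mul, hadd, hx, hy]; simp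
    | mul x y hx hy => intro j; rw [hadd, hx, hy]; simp
  let Γ : (Fin m × H →₀ ZMod p) →ₗ[ZMod p] (Fin m → MonoidAlgebra (ZMod p) R) :=
    Finsupp.linearCombination (ZMod p) fun e => Pi.single e.1 (MonoidAlgebra.of (ZMod p) R (f e.2))
  let M : (Fin m → MonoidAlgebra (ZMod p) R) →ₗ[ZMod p] (Fin n → MonoidAlgebra (ZMod p) R) :=
    { toFun := fun γ j => ∑ i, D (w i) 1 j * γ i
      map_add' := fun x y => by funext j; simp [mul_add, sum_add_distrib]
      map_smul' := fun r x => by funext j; simp [smul_sum] }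
  have key : lamMap f p n ∘ₗ Finsupp.linearCombination (ZMod p)
      (fun e : Fin m × H => rowP p ((Ψ (w e.1)).left e.2)) = M ∘ₗ Γ := by
    refine Finsupp.lhom_ext' fun e => LinearMap.ext_ring (funext fun j => ?_)
    simp only [LinearMap.comp_apply, Finsupp.lsingle_apply, Finsupp.linearCombination_single,
      one_smul, Γ, M, LinearMap.coe_mk, AddHom.coe_mk]
    rw [sum_eq_single e.1 (fun i _ hi => by simp [Pi.single_eq_of_ne hi]) (by simp),
      Pi.single_eq_same, ← htw]
  have hγ : Γ c = 0 := eq_zero_of_jac hR (fun i j => D (w i) 1 j)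
    (by simpa only [haug] using hw)
    (fun j => by
      have h := congrFun (LinearMap.congr_fun key c) j
      simp only [LinearMap.comp_apply, hc, map_zero, Pi.zero_apply] at h
      exact h.symm)
  ext ⟨i, s⟩
  by_contra hne
  have hs : (i, s) ∈ c.support := Finsupp.mem_support_iff.2 hne
  have h := congrArg (fun z => (z i).coeff (f s)) hγ
  simp only [Γ, Finsupp.linearCombination_apply, Finsupp.sum, Finset.sum_apply,
    MonoidAlgebra.coeff_sum, Finsupp.finsetSum_apply, Pi.zero_apply, MonoidAlgebra.coeff_zero,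
    Finsupp.coe_zero, Pi.smul_apply] at h
  rw [sum_eq_single (i, s) ?_ (fun h' => absurd hs h')] at h
  · exact hne (by simpa [MonoidAlgebra.of_apply] using h)
  · rintro ⟨i', s'⟩ hs' hne'
    by_cases hi : i' = i
    · subst hi
      have : f s' ≠ f s := fun e => hne' (by
        rw [show s' = s from hf ⟨_, hs', rfl⟩ ⟨_, hs, rfl⟩ e])
      simp [MonoidAlgebra.of_apply, this]
    · simp [Pi.single_eq_of_ne (Ne.symm hi)]

/-- Solvability modulo `p` is closed under extensions with residually finite `p` quotient. -/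
theorem SolvesModP.extension {G Q : Type} [Group G] [Group Q] (π : G →* Q)
    (hπ : Function.Surjective π) (hN : SolvesModP p π.ker) (hQ : ResiduallyP p Q) :
    SolvesModP p G := by
  classical
  intro m n w hw
  choose P instG instF fq hP hfq using fun q : {q : Q // q ≠ 1} => hQ q.1 q.2
  let ι : Q →* (∀ q, P q) := MonoidHom.pi fq
  have hι : Function.Injective ι := (injective_iff_map_eq_one _).2 fun q hq => by
    by_contra h
    exact hfq ⟨q, h⟩ (congrFun hq ⟨q, h⟩)
  choose x hx using fun q => exists_solution w hw (P q) (hP q) ((fq q).comp π)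
  let h : Fin n → ∀ q, P q := fun j q => x q j
  obtain ⟨ψ, hψ, hψr⟩ := exists_wreath_embedding π hπ ι hι
  let X : Fin n → (π.ker ∗ FreeGroup ((∀ q, P q) × Fin n)) ≀ᵣ (∀ q, P q) := fun j =>
    ⟨fun s => inr (FreeGroup.of (s, j)), h j⟩
  let Ψ : G ∗ FreeGroup (Fin n) →* (π.ker ∗ FreeGroup ((∀ q, P q) × Fin n)) ≀ᵣ (∀ q, P q) :=
    Coprod.lift ((mapLeft inl).comp ψ) (FreeGroup.lift X)
  have hright : ∀ i, (Ψ (w i)).right = 1 := fun i => funext fun q => by
    have e : ((Pi.evalMonoidHom P q).comp (RegularWreathProduct.rightHom.comp Ψ)) =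
        Coprod.lift ((fq q).comp π) (FreeGroup.lift (x q)) :=
      Coprod.hom_ext (MonoidHom.ext fun g => by simp [Ψ, mapLeft, hψr, ι])
        (FreeGroup.ext_hom _ _ fun j => by simp [Ψ, X, h])
    exact (DFunLike.congr_fun e (w i)).trans (hx q i)
  let e : Fin m × (∀ q, P q) → π.ker ∗ FreeGroup ((∀ q, P q) × Fin n) :=
    fun a => (Ψ (w a.1)).left a.2
  have hind : LinearIndependent (ZMod p) fun a => rowP p (e a) := by
    rw [linearIndependent_iff]
    intro c hc
    obtain ⟨R, _, _, f, hR, hf⟩ := exists_finite_separation hP (c.support.image Prod.snd)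
    rw [coe_image] at hf
    exact linearIndependent_lift hR f Ψ (fun g s => ⟨(ψ g).left s, by simp [Ψ, mapLeft]⟩)
      (fun j => by simp [Ψ, X]) w hw c hf hc
  have hsol : Solvable e := hN.solvable_family e hind
  let mk : π.ker ∗ FreeGroup ((∀ q, P q) × Fin n) →*
      (π.ker ∗ FreeGroup ((∀ q, P q) × Fin n)) ⧸ Subgroup.normalClosure (Set.range e) :=
    QuotientGroup.mk' _
  have hker : Subgroup.normalClosure (Set.range w) ≤ ((mapLeft mk).comp Ψ).ker := by
    refine Subgroup.normalClosure_le_normal ?_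
    rintro _ ⟨i, rfl⟩
    refine RegularWreathProduct.ext (funext fun s => ?_) (hright i)
    exact (QuotientGroup.eq_one_iff _).2 (Subgroup.subset_normalClosure ⟨(i, s), rfl⟩)
  intro g g' hg
  have h1 : mapLeft (mk.comp inl) (ψ (g⁻¹ * g')) = 1 := by
    have := hker (show (inl g : G ∗ FreeGroup (Fin n))⁻¹ * inl g' ∈ _ from QuotientGroup.eq.1 hg)
    rw [MonoidHom.mem_ker, ← map_inv, ← map_mul] at this
    rw [← this]
    rfl
  have h2 : ψ (g⁻¹ * g') = 1 := RegularWreathProduct.ext (funext fun s => hsol (by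
      simpa [mapLeft, mk] using congrFun (congrArg RegularWreathProduct.left h1) s))
    ((congrArg RegularWreathProduct.right h1 : _) : (ψ (g⁻¹ * g')).right = _)
  exact inv_mul_eq_one.1 (hψ (h2.trans (map_one ψ).symm))

end Vale.Agent.P174
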